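import Vale.Agent.P262S.Final

open Finset

namespace Vale.Agent.Results.P262.AaExactSteinitz

theorem result (d N : ℕ) (v : Fin N → EuclideanSpace ℝ (Fin d)) (hv : ∀ i, ‖v i‖ ≤ 1)
    (h0 : ∑ i, v i = 0) :
    ∃ π : Equiv.Perm (Fin N), ∀ k : ℕ, k ≤ N →
      ‖∑ i : Fin N, (if i.val < k then v (π i) else 0)‖ ≤ 10 ^ 8 * √(d : ℝ) := by
  rcases Nat.eq_zero_or_pos d with rfl | hd
  · refine ⟨1, fun k _ => ?_⟩
    have : (∑ i : Fin N, (if i.val < k then v ((1 : Equiv.Perm (Fin N)) i) else 0)) = 0 :=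
      Subsingleton.elim _ _
    rw [this]
    simp
  · exact Vale.Agent.P262S.steinitz_sqrt d N hd v hv h0

end Vale.Agent.Results.P262.AaExactSteinitz
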