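import Vale.Agent.P262N.Params
import Vale.Agent.P262H.Spectral
import Vale.Agent.P262H.Tree

open Finset

namespace Vale.Agent.Results.P262.AaRootLogSteinitz

theorem result (d N : ℕ) (v : Fin N → EuclideanSpace ℝ (Fin d)) (hv : ∀ i, ‖v i‖ ≤ 1)
    (h0 : ∑ i, v i = 0) :
    ∃ π : Equiv.Perm (Fin N), ∀ k : ℕ, k ≤ N →
      ‖∑ i : Fin N, (if i.val < k then v (π i) else 0)‖ ≤
        10 ^ 5 * √((d : ℝ) * Real.log (d + 2)) := by
  apply Vale.Agent.P262H.steinitz_of_coord d _ (by positivity) _ N v hv h0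
  intro N α L hα h0' hL'
  rcases Nat.eq_zero_or_pos d with rfl | hd
  · refine ⟨1, fun k _ => ?_⟩
    simp
  have hL0 : ∀ i, 0 < L i + 1 := by
    intro i
    have := hL' i i
    simp only [if_true] at this
    have h2 : 0 ≤ L i := by
      rw [← this]
      exact Finset.sum_nonneg fun n _ => mul_self_nonneg _
    linarith
  obtain ⟨P, Q, hP, hb⟩ := Vale.Agent.P262H.exists_ext d hd (fun i => L i + 1) hL0
  have hL'' : ∀ i j, ∑ v, α v i * α v j = if i = j then P.Λ i - 1 else 0 := by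
    intro i j
    rw [hL' i j, hP]
    split_ifs
    · ring
    · rfl
  obtain ⟨l, h1, h2, h3⟩ := Q.final α hα h0' hL''
  obtain ⟨π, hπ⟩ := Vale.Agent.P262H.perm_of_list l h1 h2
  refine ⟨π, fun k _ => ?_⟩
  have h4 := h3 k
  rw [← hπ α k] at h4
  have h5 : (0 : ℝ) ≤ Q.rad + (2 * P.σ + 2) := by
    have h6 := P.σ_pos
    have h7 : 0 ≤ Q.rad := Real.sqrt_nonneg _
    positivity
  have h6 : ∀ i, (∑ n : Fin N, (if n.val < k then α (π n) i else 0))
      = (∑ n : Fin N, (if n.val < k then α (π n) else 0)) i := by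
    intro i
    rw [Finset.sum_apply]
    refine Finset.sum_congr rfl fun n _ => ?_
    split_ifs <;> rfl
  simp only [h6]
  exact h4.trans (pow_le_pow_left₀ h5 hb 2)

end Vale.Agent.Results.P262.AaRootLogSteinitz
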