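import Vale.Agent.P262H.Root
import Vale.Agent.P262H.Params
import Vale.Agent.P262H.Spectral
import Vale.Agent.P262H.Tree

open Finset

namespace Vale.Agent.Results.P262.AaTopDownSteinitz

theorem result (d N : ℕ) (v : Fin N → EuclideanSpace ℝ (Fin d)) (hv : ∀ i, ‖v i‖ ≤ 1)
    (h0 : ∑ i, v i = 0) :
    ∃ π : Equiv.Perm (Fin N), ∀ k : ℕ, k ≤ N →
      ‖∑ i : Fin N, (if i.val < k then v (π i) else 0)‖ ≤
        14000 * √(d : ℝ) * (Real.log (d + 2) * √(Real.log (d + 2))) := by
  have hlog : 0 ≤ Real.log ((d : ℝ) + 2) := Real.log_nonneg (by linarith [Nat.cast_nonneg (α := ℝ) d])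
  apply Vale.Agent.P262H.steinitz_of_coord d _ (by positivity) _ N v hv h0
  intro N α L hα h0' hL'
  rcases Nat.eq_zero_or_pos d with rfl | hd
  · refine ⟨1, fun k _ => ?_⟩
    simp
  have hL0 : ∀ i, 0 ≤ L i := by
    intro i
    have := hL' i i
    simp only [if_true] at this
    rw [← this]
    exact Finset.sum_nonneg fun n _ => mul_self_nonneg _
  obtain ⟨P, hP, hb⟩ := Vale.Agent.P262H.exists_par d hd L hL0
  subst hP
  obtain ⟨l, h1, h2, h3⟩ := P.final α hα h0' hL'
  obtain ⟨π, hπ⟩ := Vale.Agent.P262H.perm_of_list l h1 h2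
  refine ⟨π, fun k _ => ?_⟩
  have h4 := h3 k
  rw [← hπ α k] at h4
  have h5 : (0 : ℝ) ≤ √(d : ℝ) * P.b + (2 * P.σ + 2) := by
    have h6 := P.σ_pos
    have h7 := P.σ_le_b
    have : 0 ≤ P.b := by linarith
    positivity
  have h6 : ∀ i, (∑ n : Fin N, (if n.val < k then α (π n) i else 0))
      = (∑ n : Fin N, (if n.val < k then α (π n) else 0)) i := by
    intro i
    rw [Finset.sum_apply]
    refine Finset.sum_congr rfl fun n _ => ?_
    split_ifs <;> rfl
  simp only [h6]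
  exact h4.trans (pow_le_pow_left₀ h5 hb 2)

end Vale.Agent.Results.P262.AaTopDownSteinitz
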