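import Vale.Agent.P262.FBFinal

open MeasureTheory ProbabilityTheory Finset

namespace Vale.Agent.Results.P262.ConvexOrderPrefix

/-- Functional form of Banaszczyk's prefix theorem with no dependence on the length `N`, in the space
`ℝ^d` (as `EuclideanSpace ℝ (Fin d)`), with `γ = stdGaussian` the standard Gaussian measure. Parts:
(1) For vectors of norm at most `3/10` and convex nonnegative test functions `g t` all of whose
translates are Gaussian integrable, some signing has `∑ t < N, g t (P t) ≤ ∑ t < N, ∫ g t dγ`, where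
`P t` is the signed sum of the first `t + 1` vectors.
(2) One probability distribution `w` on the sign patterns (subsets `A` of plus indices) makes every
prefix dominated by the Gaussian in the convex order: `E g (P t) ≤ ∫ g dγ` for every such `g` and `t`.
(3) For vectors in the unit ball and arbitrary nonnegative weights `p t`, some signing has
`∑ p t exp ((9/400) ‖P t‖²) ≤ (√2)^d ∑ p t`.
(4) With `p = 1`: the same signing bounds the number of prefixes of norm above `R`, for all `R`, and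
bounds all prefixes by the explicit form of Banaszczyk's `√d + √(log N)`.
(5) Any finite set `S` of tested prefixes can be bounded in terms of `d` and `|S|` only (no `N`).
(6) A zero-sum family of norm at most `3/10` and an even test function `G` as in (1): some ordering
has `∑ k, G (S k) ≤ n ∫ G dγ`.
(7) A zero-sum family in the unit ball: some ordering has `∑ k, exp ((9/400) ‖S k‖²) ≤ (√2)^d n`,
with the resulting count and maximal bounds. -/
theorem result (d : ℕ) :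
    (∀ (u : ℕ → EuclideanSpace ℝ (Fin d)) (g : ℕ → EuclideanSpace ℝ (Fin d) → ℝ),
      (∀ i, ‖u i‖ ≤ 3 / 10) →
      (∀ t, ConvexOn ℝ Set.univ (g t)) → (∀ t x, 0 ≤ g t x) →
      (∀ t y, Integrable (fun x => g t (x + y)) (stdGaussian (EuclideanSpace ℝ (Fin d)))) →
      ∀ N : ℕ, ∃ ε : ℕ → ℝ, (∀ i, ε i = 1 ∨ ε i = -1) ∧
        ∑ t ∈ range N, g t (∑ i ∈ range (t + 1), ε i • u i)
          ≤ ∑ t ∈ range N, ∫ x, g t x ∂(stdGaussian (EuclideanSpace ℝ (Fin d)))) ∧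
    (∀ u : ℕ → EuclideanSpace ℝ (Fin d), (∀ i, ‖u i‖ ≤ 3 / 10) → ∀ N : ℕ,
      ∃ w : Finset ℕ → ℝ, (∀ A, 0 ≤ w A) ∧ ∑ A ∈ (range N).powerset, w A = 1 ∧
        ∀ t < N, ∀ g : EuclideanSpace ℝ (Fin d) → ℝ,
          ConvexOn ℝ Set.univ g → (∀ x, 0 ≤ g x) →
          (∀ y, Integrable (fun x => g (x + y)) (stdGaussian (EuclideanSpace ℝ (Fin d)))) →
          ∑ A ∈ (range N).powerset,
            w A * g (∑ i ∈ range (t + 1), (if i ∈ A then (1 : ℝ) else -1) • u i)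
            ≤ ∫ x, g x ∂(stdGaussian (EuclideanSpace ℝ (Fin d)))) ∧
    (∀ (v : ℕ → EuclideanSpace ℝ (Fin d)) (p : ℕ → ℝ), (∀ i, ‖v i‖ ≤ 1) → (∀ t, 0 ≤ p t) →
      ∀ N : ℕ, ∃ ε : ℕ → ℝ, (∀ i, ε i = 1 ∨ ε i = -1) ∧
        ∑ t ∈ range N, p t * Real.exp (9 / 400 * ‖∑ i ∈ range (t + 1), ε i • v i‖ ^ 2)
          ≤ √2 ^ d * ∑ t ∈ range N, p t) ∧
    (∀ v : ℕ → EuclideanSpace ℝ (Fin d), (∀ i, ‖v i‖ ≤ 1) → ∀ N : ℕ,
      ∃ ε : ℕ → ℝ, (∀ i, ε i = 1 ∨ ε i = -1) ∧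
        (∑ t ∈ range N, Real.exp (9 / 400 * ‖∑ i ∈ range (t + 1), ε i • v i‖ ^ 2) ≤ √2 ^ d * N) ∧
        (∀ R : ℝ, 0 ≤ R →
          (((range N).filter (fun t => R < ‖∑ i ∈ range (t + 1), ε i • v i‖)).card : ℝ)
            * Real.exp (9 / 400 * R ^ 2) ≤ √2 ^ d * N) ∧
        (∀ t < N, 9 / 400 * ‖∑ i ∈ range (t + 1), ε i • v i‖ ^ 2
          ≤ d * Real.log √2 + Real.log N)) ∧
    (∀ v : ℕ → EuclideanSpace ℝ (Fin d), (∀ i, ‖v i‖ ≤ 1) → ∀ S : Finset ℕ, S.Nonempty →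
      ∃ ε : ℕ → ℝ, (∀ i, ε i = 1 ∨ ε i = -1) ∧
        ∀ t ∈ S, 9 / 400 * ‖∑ i ∈ range (t + 1), ε i • v i‖ ^ 2
          ≤ d * Real.log √2 + Real.log S.card) ∧
    (∀ (n : ℕ) (v : Fin n → EuclideanSpace ℝ (Fin d)) (G : EuclideanSpace ℝ (Fin d) → ℝ),
      (∀ i, ‖v i‖ ≤ 3 / 10) → ∑ i, v i = 0 →
      ConvexOn ℝ Set.univ G → (∀ x, 0 ≤ G x) →
      (∀ y, Integrable (fun x => G (x + y)) (stdGaussian (EuclideanSpace ℝ (Fin d)))) →
      (∀ x, G (-x) = G x) →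
      ∃ π : Equiv.Perm (Fin n), ∑ k : Fin n, G (∑ i ∈ Finset.Iic k, v (π i))
        ≤ n * ∫ x, G x ∂(stdGaussian (EuclideanSpace ℝ (Fin d)))) ∧
    (∀ (n : ℕ) (v : Fin n → EuclideanSpace ℝ (Fin d)), (∀ i, ‖v i‖ ≤ 1) → ∑ i, v i = 0 →
      ∃ π : Equiv.Perm (Fin n),
        (∑ k : Fin n, Real.exp (9 / 400 * ‖∑ i ∈ Finset.Iic k, v (π i)‖ ^ 2) ≤ √2 ^ d * n) ∧
        (∀ R : ℝ, 0 ≤ R →
          ((Finset.univ.filter (fun k : Fin n => R < ‖∑ i ∈ Finset.Iic k, v (π i)‖)).card : ℝ)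
            * Real.exp (9 / 400 * R ^ 2) ≤ √2 ^ d * n) ∧
        (∀ k : Fin n, 9 / 400 * ‖∑ i ∈ Finset.Iic k, v (π i)‖ ^ 2
          ≤ d * Real.log √2 + Real.log n)) := by
  refine ⟨?_, ?_, ?_, ?_, ?_, ?_, ?_⟩
  · intro u g hu hc hn hi N
    exact Vale.Agent.P262.FB.fb_main u g hu (fun t => ⟨hc t, hn t, hi t⟩) N
  · intro u hu N
    obtain ⟨w, hw, hw1, h⟩ := Vale.Agent.P262.FB.convex_order u hu N
    exact ⟨w, hw, hw1, fun t ht g hc hn hi => h t ht g ⟨hc, hn, hi⟩⟩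
  · intro v p hv hp N
    exact Vale.Agent.P262.FB.exp_weighted v p hv hp N
  · intro v hv N
    exact Vale.Agent.P262.FB.exp_tail v hv N
  · intro v hv S hS
    exact Vale.Agent.P262.FB.tested_prefixes v hv S hS
  · intro n v G hv h0 hc hn hi hev
    exact Vale.Agent.P262.FB.order_functional v G hv h0 ⟨hc, hn, hi⟩ hev
  · intro n v hv h0
    exact Vale.Agent.P262.FB.order_exp v hv h0

end Vale.Agent.Results.P262.ConvexOrderPrefix
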