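import Vale.Agent.P262.Lower

namespace Vale.Agent.Results.P262.PlaneExact

open Vale.Agent.P262

/-- `σ(2) = √3` exactly (least admissible constant), and `σ(d) ≥ √(d+1)` for all `d ≥ 2`. -/
theorem result :
    IsLeast {R : ℝ | SignedPrefixBound 2 R} (Real.sqrt 3) ∧
      ∀ d : ℕ, 2 ≤ d → ∀ R : ℝ, SignedPrefixBound d R → Real.sqrt ((d : ℝ) + 1) ≤ R := by
  refine ⟨⟨upper_two, ?_⟩, lower_all⟩
  intro R hR
  have := lower_all 2 (le_refl _) R hR
  have e : ((2 : ℕ) : ℝ) + 1 = 3 := by norm_num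
  rwa [e] at this

end Vale.Agent.Results.P262.PlaneExact
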