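import Vale.Agent.P262.SteinitzCore

namespace Vale.Agent.Results.P262.SteinitzLinear

/-- The Euclidean Steinitz constant satisfies `S₂(d)² ≤ (d² + 17 d) / 8`, that is
`S₂(d) ≤ d / (2 √2) + O(1)`: every zero-sum family in the unit ball of `ℝ^d` has an ordering whose
partial sums all have squared norm at most `(d² + 17 d) / 8`. -/
theorem result (d N : ℕ) (v : Fin N → EuclideanSpace ℝ (Fin d)) (hv : ∀ i, ‖v i‖ ≤ 1)
    (h0 : ∑ i, v i = 0) :
    ∃ π : Equiv.Perm (Fin N), ∀ k : ℕ, k ≤ N →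
      ‖∑ i : Fin N, (if i.val < k then v (π i) else 0)‖ ^ 2 ≤ ((d : ℝ) ^ 2 + 17 * d) / 8 :=
  Vale.Agent.P262.Steinitz.steinitz_bound d N v hv h0

end Vale.Agent.Results.P262.SteinitzLinear
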