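import Vale.Agent.P262.WeightedMore

open Finset BigOperators

namespace Vale.Agent.Results.P262.WeightedPrefix

/-- Weighted (square-average) prefix balancing with no dependence on the length:
(a) for all nonnegative weights on the prefixes a signing has weighted average of squared prefix
norms at most `4 d`; (b) one probability distribution on signings has expected squared norm at
most `4 d` at every single prefix; (c) every zero-sum family in the unit ball has an ordering whose
partial sums have average squared norm at most `4 d`. -/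
theorem result (d : ℕ) :
    (∀ (v : ℕ → EuclideanSpace ℝ (Fin d)), (∀ i, ‖v i‖ ≤ 1) → ∀ N : ℕ,
      (∀ p : ℕ → ℝ, (∀ t, 0 ≤ p t) → ∃ ε : ℕ → ℝ, (∀ i, ε i = 1 ∨ ε i = -1) ∧
        ∑ t ∈ range N, p t * ‖∑ i ∈ range (t + 1), ε i • v i‖ ^ 2
          ≤ 4 * d * ∑ t ∈ range N, p t) ∧
      (∃ w : Finset ℕ → ℝ, (∀ A, 0 ≤ w A) ∧ ∑ A ∈ (range N).powerset, w A = 1 ∧
        ∀ t < N, ∑ A ∈ (range N).powerset,
          w A * ‖∑ i ∈ range (t + 1), (if i ∈ A then (1 : ℝ) else -1) • v i‖ ^ 2 ≤ 4 * d)) ∧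
    (∀ (n : ℕ) (v : Fin n → EuclideanSpace ℝ (Fin d)), (∀ i, ‖v i‖ ≤ 1) → ∑ i, v i = 0 →
      ∃ π : Equiv.Perm (Fin n), ∑ k : Fin n, ‖∑ i ∈ Finset.Iic k, v (π i)‖ ^ 2 ≤ 4 * d * n) := by
  refine ⟨fun v hv N => ⟨fun p hp => Vale.Agent.P262.Weighted.main_nonneg hp hv N, ?_⟩,
    fun n v hv h0 => Vale.Agent.P262.Weighted.steinitz_average v hv h0⟩
  exact Vale.Agent.P262.Weighted.distribution v hv N

end Vale.Agent.Results.P262.WeightedPrefix
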